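import Vale.Agent.P032.H909.Fix
import Vale.Agent.P032.H849.Soft

/-!
# P032: connected germs and soft walls on lines at a two-pair point (frame `Irr U T`, `Mn U T`)

* `ctn_of_deep` : `Ctn U T z` at a two-pair point with `Deep U T z`,
* `exists_ctn` : near a two-pair point the palettes can be chosen with connected germs at the point,
* `exists_ctn_soft` : at the same time all soft walls are on the dyadic lines (849's normal form),
* `noD_of_ctn` : for `no two-pair point` the hypotheses `Ln U T` and `Ctn U T z` are free.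
-/

open Set Filter Topology Metric

noncomputable section

namespace Vale.Agent.P032.H909

open Vale.Agent.P032.Six Vale.Agent.P032.S5.H410

variable {k : ℕ} {U : Fin k → Set ℂ} {T : ℂ → Set (Fin k)} {z : ℂ} {a b c d : Fin k}

theorem ctn_of_deep (h : Irr U T) (hz : DPt T z a b c d) (hd : Deep U T z) : Ctn U T z := by
  have h1 : ∀ q, ∀ᶠ w in 𝓝 z, q ∈ T w → Jn U q z 1 w := by
    intro q
    by_cases hq : q ∈ T z
    · exact dlink_all h hz hd hq one_pos
    · filter_upwards [h.nhd z] with w hw hw'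
      exact absurd (hw hw') hq
  filter_upwards [eventually_all.2 h1] with w hw q hq
  obtain ⟨Γ, k1, k2, k3, -, k5⟩ := hw q hq
  exact ⟨Γ, fun p hp => k5 p hp, k1, k3, k2⟩

/-- **connected germs at a two-pair point** -/
theorem exists_ctn (h : Irr U T) (hmin : Mnk U T) (hz : DPt T z a b c d) {ρ : ℝ} (hρ : 0 < ρ) : ∃ T', Irr U T' ∧
    Mnk U T' ∧ DPt T' z a b c d ∧ Ctn U T' z ∧ T' z = T z ∧ (∀ w, w ∉ ball z ρ → T' w ⊆ T w) ∧
    ∀ w, w ∉ ball z ρ → 4 ≤ (T w).ncard → T' w = T w := by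
  obtain ⟨T', h1, h2, h3, h4, h5, h6, h7⟩ := exists_fix h hmin hz hρ
  exact ⟨T', h1, h2, h3, ctn_of_deep h1 h3 h4, h5, h6, h7⟩

theorem DPt.XX (h : Irr U T) (hz : DPt T z a b c d) : ∀ i ∈ T z, z ∉ U i := by
  obtain ⟨u, v, g1, g2, H⟩ := Fr.exists_of h hz
  obtain ⟨h1, h2, h3, h4⟩ := H.notU h
  intro i hi
  rw [hz.pal] at hi
  rcases hi with rfl | rfl | rfl | hi
  · exact h1
  · exact h2
  · exact h3
  · rw [mem_singleton_iff] at hi; subst hi; exact h4

/-- an exact arc of `S(z)` with two colours of `T z` keeps its palette if the palettes on `XX U` get smaller -/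
theorem arc_keep {T' : ℂ → Set (Fin k)} (h : Irr U T) (h' : Irr U T') (hs : ∀ x ∈ XX U, T' x ⊆ T x) {p : ℂ}
    {m n : Fin k} (hm : m ∈ T z) (hn : n ∈ T z) (hp : Arc T z p {m, n}) : Arc T' z p {m, n} := by
  refine ⟨hp.1, ?_⟩
  filter_upwards [hp.2, self_mem_nhdsWithin] with y hy hy1
  have hy1 : dist y z = 1 := hy1
  have hX : y ∈ XX U := h.mem_XX hy1 (i := m) (by rw [hy]; simp) (h.sub z hm)
  have h1 : T' y ⊆ {m, n} := by rw [← hy]; exact hs y hX
  have h2 : ∀ i ∈ T z, ¬ T' y ⊆ {i} := fun i hi hcon =>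
    h.mx.notMem' (h'.mem_of_single hcon) hy1 (h.sub z hi)
  refine Subset.antisymm h1 ?_
  rintro i (rfl | hi)
  · by_contra hcon
    refine h2 n hn fun j hj => ?_
    rcases h1 hj with h3 | h3
    · exact absurd (h3 ▸ hj) hcon
    · exact h3
  · rw [mem_singleton_iff] at hi
    subst hi
    by_contra hcon
    refine h2 m hm fun j hj => ?_
    rcases h1 hj with h3 | h3
    · exact h3
    · rw [mem_singleton_iff] at h3
      exact absurd (h3 ▸ hj) hcon

/-- **connected germs and soft walls on lines** -/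
theorem exists_ctn_soft {U : Fin 6 → Set ℂ} {T : ℂ → Set (Fin 6)} {a b c d : Fin 6} (h : Irr U T) (hmin : Mn U T)
    (hz : DPt T z a b c d) {ρ : ℝ} (hρ : 0 < ρ) : ∃ T', Irr U T' ∧ Mn U T' ∧ DPt T' z a b c d ∧ Ctn U T' z ∧
      Ln U T' ∧ T' z = T z ∧ (∀ w ∈ XX U, w ∉ ball z ρ → T' w ⊆ T w) ∧
      ∀ w, w ∉ ball z ρ → 4 ≤ (T w).ncard → T' w = T w := by
  obtain ⟨T₁, h1, h2, h3, h4, h5, h6, h7⟩ := exists_ctn h (mnk_iff.2 hmin) hz hρ
  have h2' := mnk_iff.1 h2
  obtain ⟨T', k1, k2, k3, k4, -, k6⟩ := h1.exists_soft6 h2'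
  -- palettes with four colours are kept
  have h4c : ∀ x, 4 ≤ (T₁ x).ncard → T' x = T₁ x := by
    intro x hx
    have hX : x ∈ XX U := by
      by_contra hX
      have := h1.ncard_off hX
      omega
    by_contra hne
    exact h2' x hx _ (k3 x hX) hne (k1.suff x)
  have hz4 : 4 ≤ (T₁ z).ncard := by
    rw [h3.pal, Set.ncard_insert_of_notMem, Set.ncard_insert_of_notMem, Set.ncard_pair h3.cd]
    · simp only [mem_insert_iff, mem_singleton_iff, not_or]; exact ⟨h3.bc, h3.bd⟩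
    · simp only [mem_insert_iff, mem_singleton_iff, not_or]; exact ⟨h3.ab, h3.ac, h3.ad⟩
  have hTz : T' z = T₁ z := h4c z hz4
  have hd : DPt T' z a b c d := by
    refine ⟨by rw [hTz]; exact h3.pal, h3.ac, h3.ad, h3.bc, h3.bd, h3.ab, h3.cd, ?_, ?_⟩
    · obtain ⟨p, hp⟩ := h3.arc1
      exact ⟨p, arc_keep h1 k1 k3 (by rw [h3.pal]; simp) (by rw [h3.pal]; simp) hp⟩
    · obtain ⟨p, hp⟩ := h3.arc2
      exact ⟨p, arc_keep h1 k1 k3 (by rw [h3.pal]; simp) (by rw [h3.pal]; simp) hp⟩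
  refine ⟨T', k1, k2, hd, k6 z h4, k4, hTz.trans h5, fun w hX hw => (k3 w hX).trans (h6 w hw), fun w hw hw4 => ?_⟩
  have e := h7 w hw hw4
  rw [← e] at hw4 ⊢
  exact h4c w hw4

/-- for `no two-pair point` the normal form of the soft walls and connected germs at the point are free hypotheses -/
theorem noD_of_ctn (hD : ∀ (U : Fin 6 → Set ℂ) (T : ℂ → Set (Fin 6)) (z : ℂ) (a b c d : Fin 6), Irr U T → Mn U T →
    Ln U T → Ctn U T z → DPt T z a b c d → False) {U : Fin 6 → Set ℂ} {T : ℂ → Set (Fin 6)} {a b c d : Fin 6}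
    (h : Irr U T) (hmin : Mn U T) (hz : DPt T z a b c d) : False := by
  obtain ⟨T', h1, h2, h3, h4, h5, -⟩ := exists_ctn_soft h hmin hz one_pos
  exact hD U T' z a b c d h1 h2 h5 h4 h3

/-- the same with a second point `v` at distance one with at least four colours -/
theorem noDV_of_ctn (hD : ∀ (U : Fin 6 → Set ℂ) (T : ℂ → Set (Fin 6)) (z v : ℂ) (a b c d : Fin 6), Irr U T → Mn U T →
    Ln U T → Ctn U T z → DPt T z a b c d → dist v z = 1 → 4 ≤ (T v).ncard → False) {U : Fin 6 → Set ℂ}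
    {T : ℂ → Set (Fin 6)} {a b c d : Fin 6} (h : Irr U T) (hmin : Mn U T) (hz : DPt T z a b c d) {v : ℂ}
    (hv : dist v z = 1) (h4 : 4 ≤ (T v).ncard) : False := by
  obtain ⟨T', h1, h2, h3, h4', h5, -, -, h8⟩ := exists_ctn_soft h hmin hz one_pos
  have e : T' v = T v := h8 v (by rw [mem_ball, hv]; norm_num) h4
  exact hD U T' z v a b c d h1 h2 h5 h4' h3 hv (by rw [e]; exact h4)

end Vale.Agent.P032.H909
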