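import Vale.Agent.P032.H909.Sec

/-!
# P032: the link at a two-pair point (frame `Irr U T`)

`Fr U T z a b c d u v g1 g2` : a two-pair point `a b | c d`, the arcs at `g1`, `g2`, the solid rays `u` (colour `c`), `-u`
(`d`), `v` (`a`), `-v` (`b`).

* `excl` : in the sector spanned by a solid ray of `c` and a ray orthogonal to an exact `c d` arc there is no `d`,
* `Fr.two` : two colours in each of the four sectors,
* `Fr.dlink` (D-LINK) : the points near `z` with the colour `c` off the neighbouring open sets, or at which `c` is at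
  least as deep as the other colour, are joined to `z` in the colour `c`.
-/

open Set Filter Topology Metric

noncomputable section

namespace Vale.Agent.P032.H909

open Vale.Agent.P032.Six Vale.Agent.P032.S5.H410

variable {k : ℕ} {U : Fin k → Set ℂ} {T : ℂ → Set (Fin k)} {i j : Fin k} {x u v w z g g1 g2 : ℂ}
  {a b c d : Fin k}

theorem ip_comm (a b : ℂ) : ip a b = ip b a := by unfold ip; ring

theorem ip_add_left (a b c : ℂ) : ip (a + b) c = ip a c + ip b c := by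
  unfold ip; simp only [Complex.add_re, Complex.add_im]; ring

theorem ip_smul_left (r : ℝ) (a c : ℂ) : ip (r * a) c = r * ip a c := by
  unfold ip; simp only [Complex.mul_re, Complex.mul_im, Complex.ofReal_re, Complex.ofReal_im]; ring

theorem ip_neg_left (a c : ℂ) : ip (-a) c = -ip a c := by
  unfold ip; simp only [Complex.neg_re, Complex.neg_im]; ring

theorem continuous_ip (a : ℂ) : Continuous fun x : ℂ => ip a x := by unfold ip; fun_prop

theorem sq_norm_ip (a : ℂ) : ‖a‖ ^ 2 = ip a a := by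
  rw [Complex.sq_norm, Complex.normSq_apply]; unfold ip; ring

/-- tilting a point of the circle -/
theorem tilt (hv : ‖v‖ = 1) (hg : dist g z = 1) (ho : ip v (g - z) = 0) {P : ℂ → Prop} (hP : ∀ᶠ x in 𝓝 g, P x) :
    ∃ g', dist g' z = 1 ∧ 0 < ip v (g' - z) ∧ P g' := by
  have hn : ‖g - z‖ = 1 := by rw [← dist_eq_norm]; exact hg
  set γ : ℝ → ℂ := fun s => z + (Real.cos s * (g - z) + Real.sin s * v) with hγ
  have hγc : Continuous γ := by
    rw [hγ]
    have h1 : Continuous fun s : ℝ => ((Real.cos s : ℝ) : ℂ) := Complex.continuous_ofReal.comp Real.continuous_cos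
    have h2 : Continuous fun s : ℝ => ((Real.sin s : ℝ) : ℂ) := Complex.continuous_ofReal.comp Real.continuous_sin
    exact continuous_const.add ((h1.mul continuous_const).add (h2.mul continuous_const))
  have hγ0 : γ 0 = g := by simp [hγ]
  have h1 : ∀ᶠ s : ℝ in 𝓝[>] 0, P (γ s) := by
    have := hγc.tendsto 0
    rw [hγ0] at this
    exact (this.mono_left nhdsWithin_le_nhds).eventually hP
  have h2 : ∀ᶠ s : ℝ in 𝓝[>] 0, s ∈ Ioo (0 : ℝ) 1 := Ioo_mem_nhdsGT one_pos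
  obtain ⟨s, hPs, hs⟩ := (h1.and h2).exists
  have e : γ s - z = Real.cos s * (g - z) + Real.sin s * v := by rw [hγ]; ring
  refine ⟨γ s, ?_, ?_, hPs⟩
  · have h3 : ‖γ s - z‖ ^ 2 = 1 := by
      have h4 : ip (g - z) (g - z) = 1 := by rw [← sq_norm_ip, hn]; norm_num
      have h5 : ip v v = 1 := by rw [← sq_norm_ip, hv]; norm_num
      rw [sq_norm_ip, e]
      have : ip (Real.cos s * (g - z) + Real.sin s * v) (Real.cos s * (g - z) + Real.sin s * v) =
          Real.cos s ^ 2 * ip (g - z) (g - z) + Real.sin s ^ 2 * ip v v +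
            2 * Real.cos s * Real.sin s * ip v (g - z) := by
        rw [ip_add_left, ip_smul_left, ip_smul_left, ip_comm (g - z), ip_comm v, ip_add_left, ip_add_left,
          ip_smul_left, ip_smul_left, ip_smul_left, ip_smul_left, ip_comm (g - z) v]
        ring
      rw [this, h4, h5, ho]
      have := Real.sin_sq_add_cos_sq s
      linarith
    rw [dist_eq_norm]
    have := norm_nonneg (γ s - z)
    nlinarith
  · have h5 : ip v v = 1 := by rw [← sq_norm_ip, hv]; norm_num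
    rw [e, ip_comm, ip_add_left, ip_smul_left, ip_smul_left, ip_comm (g - z), ho, h5]
    have := Real.sin_pos_of_pos_of_lt_pi hs.1 (by linarith [hs.2, Real.pi_gt_three])
    linarith

/-- the unit circle about a point `p` near `z` with `p - z` at a positive angle to `g - z` has a point near `g` outside
`S(z)` -/
theorem pt_out {P : ℂ → Prop} (hg : dist g z = 1) (hP : ∀ᶠ x in 𝓝 g, 1 < dist x z → P x) :
    ∀ᶠ p in 𝓝 z, dist p g < 1 → ∃ x, dist p x = 1 ∧ P x := by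
  have hne : g - z ≠ 0 := by
    intro h0; rw [dist_eq_norm, h0] at hg; simp at hg
  have hc : ContinuousAt (fun p : ℂ => p + ((‖g - p‖⁻¹ : ℝ) : ℂ) * (g - p)) z := by
    have h1 : ContinuousAt (fun p : ℂ => (‖g - p‖⁻¹ : ℝ)) z :=
      ContinuousAt.inv₀ (by fun_prop) (by simpa using hne)
    exact continuousAt_id.add ((Complex.continuous_ofReal.continuousAt.comp h1).mul (by fun_prop))
  have hn : ‖g - z‖ = 1 := by rw [← dist_eq_norm]; exact hg
  have hz : z + ((‖g - z‖⁻¹ : ℝ) : ℂ) * (g - z) = g := by rw [hn]; simp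
  have h2 : ∀ᶠ p in 𝓝 z, 1 < dist (p + ((‖g - p‖⁻¹ : ℝ) : ℂ) * (g - p)) z →
      P (p + ((‖g - p‖⁻¹ : ℝ) : ℂ) * (g - p)) := by
    have := hc.tendsto
    rw [hz] at this
    exact this.eventually hP
  have h3 : ∀ᶠ p in 𝓝 z, dist p z < 1 := ball_mem_nhds z one_pos
  have h4 : ∀ᶠ p in 𝓝 z, g - p ≠ 0 := (continuous_const.sub continuous_id).continuousAt.eventually_ne hne
  filter_upwards [h2, h3, h4] with p h5 h6 h7 h8
  set ℓ := ‖g - p‖ with hℓ
  have hℓ0 : 0 < ℓ := norm_pos_iff.2 h7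
  have hℓ1 : ℓ < 1 := by rw [hℓ, ← dist_eq_norm, dist_comm]; exact h8
  refine ⟨p + ((ℓ⁻¹ : ℝ) : ℂ) * (g - p), ?_, h5 ?_⟩
  · rw [dist_comm, dist_eq_norm, add_sub_cancel_left, norm_mul, Complex.norm_real, Real.norm_eq_abs,
      abs_of_pos (inv_pos.2 hℓ0), ← hℓ]
    exact inv_mul_cancel₀ hℓ0.ne'
  · have hl : 1 < ℓ⁻¹ := (one_lt_inv₀ hℓ0).2 hℓ1
    have e : p + ((ℓ⁻¹ : ℝ) : ℂ) * (g - p) - z = ((ℓ⁻¹ : ℝ) : ℂ) * (g - z) - ((ℓ⁻¹ - 1 : ℝ) : ℂ) * (p - z) := by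
      push_cast; ring
    rw [dist_eq_norm, e]
    have h9 := norm_sub_norm_le (((ℓ⁻¹ : ℝ) : ℂ) * (g - z)) (((ℓ⁻¹ - 1 : ℝ) : ℂ) * (p - z))
    rw [norm_mul, norm_mul, Complex.norm_real, Complex.norm_real, hn, Real.norm_eq_abs, Real.norm_eq_abs,
      abs_of_pos (by linarith : (0 : ℝ) < ℓ⁻¹), abs_of_pos (by linarith : (0 : ℝ) < ℓ⁻¹ - 1), mul_one] at h9
    rw [dist_eq_norm] at h6
    have h10 : (ℓ⁻¹ - 1) * ‖p - z‖ < (ℓ⁻¹ - 1) * 1 := mul_lt_mul_of_pos_left h6 (by linarith)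
    linarith

/-- the same, inside -/
theorem pt_in {P : ℂ → Prop} (hg : dist g z = 1) (hP : ∀ᶠ x in 𝓝 g, dist x z < 1 → P x) :
    ∀ᶠ p in 𝓝 z, 1 < dist p g → ∃ x, dist p x = 1 ∧ P x := by
  have hne : g - z ≠ 0 := by
    intro h0; rw [dist_eq_norm, h0] at hg; simp at hg
  have hc : ContinuousAt (fun p : ℂ => p + ((‖g - p‖⁻¹ : ℝ) : ℂ) * (g - p)) z := by
    have h1 : ContinuousAt (fun p : ℂ => (‖g - p‖⁻¹ : ℝ)) z :=
      ContinuousAt.inv₀ (by fun_prop) (by simpa using hne)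
    exact continuousAt_id.add ((Complex.continuous_ofReal.continuousAt.comp h1).mul (by fun_prop))
  have hn : ‖g - z‖ = 1 := by rw [← dist_eq_norm]; exact hg
  have hz : z + ((‖g - z‖⁻¹ : ℝ) : ℂ) * (g - z) = g := by rw [hn]; simp
  have h2 : ∀ᶠ p in 𝓝 z, dist (p + ((‖g - p‖⁻¹ : ℝ) : ℂ) * (g - p)) z < 1 →
      P (p + ((‖g - p‖⁻¹ : ℝ) : ℂ) * (g - p)) := by
    have := hc.tendsto
    rw [hz] at this
    exact this.eventually hP
  have h3 : ∀ᶠ p in 𝓝 z, dist p z < 1 := ball_mem_nhds z one_pos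
  filter_upwards [h2, h3] with p h5 h6 h8
  set ℓ := ‖g - p‖ with hℓ
  have hℓ1 : 1 < ℓ := by rw [hℓ, ← dist_eq_norm, dist_comm]; exact h8
  have hℓ0 : 0 < ℓ := by linarith
  refine ⟨p + ((ℓ⁻¹ : ℝ) : ℂ) * (g - p), ?_, h5 ?_⟩
  · rw [dist_comm, dist_eq_norm, add_sub_cancel_left, norm_mul, Complex.norm_real, Real.norm_eq_abs,
      abs_of_pos (inv_pos.2 hℓ0), ← hℓ]
    exact inv_mul_cancel₀ hℓ0.ne'
  · have hl : ℓ⁻¹ < 1 := inv_lt_one_of_one_lt₀ hℓ1
    have hl0 : 0 < ℓ⁻¹ := inv_pos.2 hℓ0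
    have e : p + ((ℓ⁻¹ : ℝ) : ℂ) * (g - p) - z = ((ℓ⁻¹ : ℝ) : ℂ) * (g - z) + ((1 - ℓ⁻¹ : ℝ) : ℂ) * (p - z) := by
      push_cast; ring
    rw [dist_eq_norm, e]
    have h9 := norm_add_le (((ℓ⁻¹ : ℝ) : ℂ) * (g - z)) (((1 - ℓ⁻¹ : ℝ) : ℂ) * (p - z))
    rw [norm_mul, norm_mul, Complex.norm_real, Complex.norm_real, hn, Real.norm_eq_abs, Real.norm_eq_abs,
      abs_of_pos hl0, abs_of_pos (by linarith : (0 : ℝ) < 1 - ℓ⁻¹), mul_one] at h9
    rw [dist_eq_norm] at h6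
    have h10 : (1 - ℓ⁻¹) * ‖p - z‖ < (1 - ℓ⁻¹) * 1 := mul_lt_mul_of_pos_left h6 (by linarith)
    linarith

/-- points of a sector in an open half plane are inside (outside) the disc about the direction -/
theorem sec_near (hu : ‖u‖ = 1) (hv : ‖v‖ = 1) (hg : dist g z = 1) (h1 : 0 < ip u (g - z)) (h2 : 0 < ip v (g - z)) :
    ∀ᶠ p in 𝓝 z, p ∈ Sec z u v → p ≠ z → dist p g < 1 := by
  set m := min (ip u (g - z)) (ip v (g - z)) with hm
  have hm0 : 0 < m := lt_min h1 h2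
  filter_upwards [ball_mem_nhds z hm0] with p hp hpS hpz
  obtain ⟨α, β, hα, hβ, rfl⟩ := hpS
  rw [mem_ball, dist_eq_norm] at hp
  set q : ℂ := z + α * u + β * v - z with hq
  have hq' : q = α * u + β * v := by rw [hq]; ring
  have hq0 : 0 < ‖q‖ := norm_pos_iff.2 (sub_ne_zero.2 hpz)
  have hqn : ‖q‖ ≤ α + β := by
    rw [hq']
    refine (norm_add_le _ _).trans ?_
    rw [norm_mul, norm_mul, hu, hv, Complex.norm_real, Complex.norm_real, Real.norm_eq_abs, Real.norm_eq_abs,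
      abs_of_nonneg hα, abs_of_nonneg hβ, mul_one, mul_one]
  have hip : m * ‖q‖ ≤ ip q (g - z) := by
    have e : ip q (g - z) = α * ip u (g - z) + β * ip v (g - z) := by
      rw [hq', ip_add_left, ip_smul_left, ip_smul_left]
    rw [e]
    have h3 : m ≤ ip u (g - z) := min_le_left _ _
    have h4 : m ≤ ip v (g - z) := min_le_right _ _
    nlinarith [mul_le_mul_of_nonneg_left h3 hα, mul_le_mul_of_nonneg_left h4 hβ, mul_le_mul_of_nonneg_left hqn hm0.le]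
  have e2 : dist (z + α * u + β * v) g ^ 2 = 1 - 2 * ip q (g - z) + ‖q‖ ^ 2 := by
    have hn : ip (g - z) (g - z) = 1 := by
      rw [← sq_norm_ip, ← dist_eq_norm, hg]; norm_num
    have e3 : z + α * u + β * v - g = q - (g - z) := by rw [hq]; ring
    rw [dist_eq_norm, e3, sq_norm_ip, sq_norm_ip, ← hn]
    unfold ip
    simp only [Complex.sub_re, Complex.sub_im]
    ring
  rw [← abs_of_nonneg (dist_nonneg (x := z + α * u + β * v) (y := g)), ← sq_lt_one_iff_abs_lt_one, e2]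
  nlinarith

theorem sec_far (hg : dist g z = 1) (h1 : ip u (g - z) < 0) (h2 : ip v (g - z) < 0) :
    ∀ᶠ p in 𝓝 z, p ∈ Sec z u v → p ≠ z → 1 < dist p g := by
  refine Eventually.of_forall fun p hpS hpz => ?_
  obtain ⟨α, β, hα, hβ, rfl⟩ := hpS
  set q : ℂ := z + α * u + β * v - z with hq
  have hq' : q = α * u + β * v := by rw [hq]; ring
  have hq0 : 0 < ‖q‖ := norm_pos_iff.2 (sub_ne_zero.2 hpz)
  have hip : ip q (g - z) ≤ 0 := by
    have e : ip q (g - z) = α * ip u (g - z) + β * ip v (g - z) := by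
      rw [hq', ip_add_left, ip_smul_left, ip_smul_left]
    rw [e]
    nlinarith
  have e2 : dist (z + α * u + β * v) g ^ 2 = 1 - 2 * ip q (g - z) + ‖q‖ ^ 2 := by
    have hn : ip (g - z) (g - z) = 1 := by
      rw [← sq_norm_ip, ← dist_eq_norm, hg]; norm_num
    have e3 : z + α * u + β * v - g = q - (g - z) := by rw [hq]; ring
    rw [dist_eq_norm, e3, sq_norm_ip, sq_norm_ip, ← hn]
    unfold ip
    simp only [Complex.sub_re, Complex.sub_im]
    ring
  have h3 := dist_nonneg (x := z + α * u + β * v) (y := g)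
  by_contra hcon
  push Not at hcon
  have h4 : dist (z + α * u + β * v) g ^ 2 ≤ 1 := by nlinarith
  rw [e2] at h4
  nlinarith

/-- **exclusion**: in the sector spanned by a solid ray `u` of `c` and a ray `v` orthogonal to the direction of a point
`g` with the colours `c`, `d` there is no `d` -/
theorem excl (h : Irr U T) (hu : ‖u‖ = 1) (hv : ‖v‖ = 1) (hg : dist g z = 1) (hT : T g ⊆ {c, d})
    (ho : ip v (g - z) = 0) (hi : ip u (g - z) ≠ 0) (hr : Ray (U c) z u) :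
    ∀ᶠ p in 𝓝 z, p ∈ Sec z u v → p ≠ z → d ∉ Pal U p := by
  have hnhd : ∀ᶠ x in 𝓝 g, T x ⊆ {c, d} := (h.nhd g).mono fun x hx => hx.trans hT
  have hmem : ∀ x, T x ⊆ {c, d} → c ∉ Pal U x → x ∈ U d := by
    intro x h1 h2
    refine h.mem_of_single fun m hm => ?_
    rcases h1 hm with h3 | h3
    · exact absurd (h.sub x (h3 ▸ hm)) h2
    · exact h3
  rcases lt_or_gt_of_ne hi with hi | hi
  · -- away: `d` inside
    have h1 : ∀ᶠ x in 𝓝 g, dist x z < 1 → x ∈ U d := by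
      filter_upwards [h.mx.near hr hg hi, hnhd] with x h1 h2 h3
      exact hmem x h2 (h1 h3)
    have h2 : ∀ᶠ x in 𝓝 g, ip u (x - z) < 0 :=
      ((continuous_ip u).comp (continuous_id.sub continuous_const)).continuousAt.eventually_lt_const hi
    obtain ⟨g', hg', hgv, h3, h4⟩ := tilt (v := -v) (by rw [norm_neg]; exact hv) hg
      (by rw [ip_neg_left, ho, neg_zero]) ((eventually_eventually_nhds.2 h1).and h2)
    rw [ip_neg_left] at hgv
    filter_upwards [sec_far (v := v) hg' h4 (by linarith), pt_in hg' h3] with p h5 h6 hp hpz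
    obtain ⟨x, hx, hxd⟩ := h6 (h5 hp hpz)
    exact h.mx.notMem' hxd (by rw [dist_comm]; exact hx)
  · have h1 : ∀ᶠ x in 𝓝 g, 1 < dist x z → x ∈ U d := by
      filter_upwards [h.mx.far hr hg hi, hnhd] with x h1 h2 h3
      exact hmem x h2 (h1 h3)
    have h2 : ∀ᶠ x in 𝓝 g, 0 < ip u (x - z) :=
      ((continuous_ip u).comp (continuous_id.sub continuous_const)).continuousAt.eventually_const_lt hi
    obtain ⟨g', hg', hgv, h3, h4⟩ := tilt hv hg ho ((eventually_eventually_nhds.2 h1).and h2)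
    filter_upwards [sec_near hu hv hg' h4 hgv, pt_out hg' h3] with p h5 h6 hp hpz
    obtain ⟨x, hx, hxd⟩ := h6 (h5 hp hpz)
    exact h.mx.notMem' hxd (by rw [dist_comm]; exact hx)

/-- the frame at a two-pair point -/
structure Fr (U : Fin k → Set ℂ) (T : ℂ → Set (Fin k)) (z : ℂ) (a b c d : Fin k) (u v g1 g2 : ℂ) : Prop where
  dpt : DPt T z a b c d
  a1 : Arc T z g1 {a, b}
  a2 : Arc T z g2 {c, d}
  nu : ‖u‖ = 1
  nv : ‖v‖ = 1
  iu : ip u (g1 - z) = 0
  iv : ip v (g2 - z) = 0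
  ra : Ray (U a) z v
  rb : Ray (U b) z (-v)
  rc : Ray (U c) z u
  rd : Ray (U d) z (-u)
  na : ∀ᶠ r : ℝ in 𝓝[>] 0, a ∉ Pal U (z + r * u) ∧ b ∉ Pal U (z + r * u)
  na' : ∀ᶠ r : ℝ in 𝓝[>] 0, a ∉ Pal U (z + r * -u) ∧ b ∉ Pal U (z + r * -u)
  nc : ∀ᶠ r : ℝ in 𝓝[>] 0, c ∉ Pal U (z + r * v) ∧ d ∉ Pal U (z + r * v)
  nc' : ∀ᶠ r : ℝ in 𝓝[>] 0, c ∉ Pal U (z + r * -v) ∧ d ∉ Pal U (z + r * -v)
  D : cr u v ≠ 0

namespace Fr

theorem swap (H : Fr U T z a b c d u v g1 g2) : Fr U T z c d a b v u g2 g1 where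
  dpt := H.dpt.swap
  a1 := H.a2
  a2 := H.a1
  nu := H.nv
  nv := H.nu
  iu := H.iv
  iv := H.iu
  ra := H.rc
  rb := H.rd
  rc := H.ra
  rd := H.rb
  na := H.nc
  na' := H.nc'
  nc := H.na
  nc' := H.na'
  D := by
    have := H.D
    intro h0; apply this; unfold cr at *; linarith

theorem negv (H : Fr U T z a b c d u v g1 g2) : Fr U T z b a c d u (-v) g1 g2 where
  dpt := H.dpt.swap12
  a1 := by rw [pair_comm]; exact H.a1
  a2 := H.a2
  nu := H.nu
  nv := by rw [norm_neg]; exact H.nv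
  iu := H.iu
  iv := by rw [ip_neg_left, H.iv, neg_zero]
  ra := H.rb
  rb := by rw [neg_neg]; exact H.ra
  rc := H.rc
  rd := H.rd
  na := H.na.mono fun r hr => ⟨hr.2, hr.1⟩
  na' := H.na'.mono fun r hr => ⟨hr.2, hr.1⟩
  nc := H.nc'
  nc' := by rw [neg_neg]; exact H.nc
  D := by
    have := H.D
    intro h0; apply this; unfold cr at *; simp at h0; linarith

theorem negu (H : Fr U T z a b c d u v g1 g2) : Fr U T z a b d c (-u) v g1 g2 :=
  H.swap.negv.swap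

theorem exists_one (h : Irr U T) (hz : DPt T z a b c d) (hg : Arc T z g {c, d}) : ∃ v : ℂ, ‖v‖ = 1 ∧
    ip v (g - z) = 0 ∧ Ray (U a) z v ∧ Ray (U b) z (-v) ∧
    (∀ᶠ r : ℝ in 𝓝[>] 0, c ∉ Pal U (z + r * v) ∧ d ∉ Pal U (z + r * v)) ∧
    (∀ᶠ r : ℝ in 𝓝[>] 0, c ∉ Pal U (z + r * -v) ∧ d ∉ Pal U (z + r * -v)) ∧
    (v = Complex.I * (g - z) ∨ v = -(Complex.I * (g - z))) := by
  have hn : ‖g - z‖ = 1 := by rw [← dist_eq_norm]; exact hg.1
  have hnI : ‖Complex.I * (g - z)‖ = 1 := by rw [norm_mul, Complex.norm_I, one_mul, hn]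
  have hip : ip (Complex.I * (g - z)) (g - z) = 0 := by unfold ip; simp; ring
  obtain ⟨t0, ht0⟩ := exists_cis hn
  have hgt : g = z + cis t0 := by rw [← ht0]; ring
  have hg2 := hg
  rw [hgt] at hg2
  obtain ⟨η, hη, hJ⟩ := hg2.exists_eta
  have key : ∀ σ : ℝ, (σ = 1 ∨ σ = -1) → ∀ᶠ r : ℝ in 𝓝[>] 0, c ∉ Pal U (z + r * (σ * (Complex.I * (g - z)))) ∧
      d ∉ Pal U (z + r * (σ * (Complex.I * (g - z)))) := by
    intro σ hσ
    rw [ht0]
    exact (h.mx.ray_avoid hη (i := c) (fun t ht => h.sub _ (by rw [hJ t ht]; simp)) hσ).and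
      (h.mx.ray_avoid hη (i := d) (fun t ht => h.sub _ (by rw [hJ t ht]; simp)) hσ)
  have k1 := key 1 (Or.inl rfl)
  have k2 := key (-1) (Or.inr rfl)
  have e1 : ((1 : ℝ) : ℂ) * (Complex.I * (g - z)) = Complex.I * (g - z) := by simp
  have e2 : ((-1 : ℝ) : ℂ) * (Complex.I * (g - z)) = -(Complex.I * (g - z)) := by push_cast; ring
  rw [e1] at k1
  rw [e2] at k2
  rcases h.d0 hz hg with ⟨r1, r2⟩ | ⟨r1, r2⟩
  · exact ⟨_, hnI, hip, r1, r2, k1, k2, Or.inl rfl⟩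
  · refine ⟨-(Complex.I * (g - z)), by rw [norm_neg]; exact hnI, by rw [ip_neg_left, hip, neg_zero], r2,
      by rw [neg_neg]; exact r1, k2, by rw [neg_neg]; exact k1, Or.inr rfl⟩

theorem exists_of (h : Irr U T) (hz : DPt T z a b c d) : ∃ u v g1 g2, Fr U T z a b c d u v g1 g2 := by
  obtain ⟨g2, hg2⟩ := hz.arc2
  obtain ⟨p, hp⟩ := hz.arc1
  obtain ⟨g1, hg1, hne1, hne2⟩ := hp.exists_off_line (y := g2)
  obtain ⟨v, nv, iv, ra, rb, nc, nc', hv⟩ := exists_one h hz hg2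
  obtain ⟨u, nu, iu, rc, rd, na, na', hu⟩ := exists_one h hz.swap hg1
  refine ⟨u, v, g1, g2, ⟨hz, hg1, hg2, nu, nv, iu, iv, ra, rb, rc, rd, na, na', nc, nc', fun h0 => ?_⟩⟩
  have h1 : u = v ∨ u = -v := cr_zero nu nv h0
  have hI : Complex.I ≠ 0 := Complex.I_ne_zero
  have h2 : g1 - z = g2 - z ∨ g1 - z = -(g2 - z) := by
    have e : ∀ A B : ℂ, Complex.I * A = Complex.I * B → A = B := fun A B => mul_left_cancel₀ hI
    rcases h1 with h1 | h1 <;> rcases hu with hu | hu <;> rcases hv with hv | hv <;> rw [hu, hv] at h1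
    · exact Or.inl (e _ _ h1)
    · exact Or.inr (e _ _ (by rw [h1]; ring))
    · exact Or.inr (e _ _ (by linear_combination -h1))
    · exact Or.inl (e _ _ (by linear_combination -h1))
    · exact Or.inr (e _ _ (by rw [h1]; ring))
    · exact Or.inl (e _ _ (by rw [h1]; ring))
    · exact Or.inl (e _ _ (by linear_combination -h1))
    · exact Or.inr (e _ _ (by linear_combination -h1))
  rcases h2 with h2 | h2
  · exact hne1 (by linear_combination h2)
  · exact hne2 (by linear_combination h2)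

/-- `u` is not orthogonal to the direction of `g2` -/
theorem iu2 (H : Fr U T z a b c d u v g1 g2) : ip u (g2 - z) ≠ 0 := by
  intro h0
  have hn : ip (g2 - z) (g2 - z) = 1 := by rw [← sq_norm_ip, ← dist_eq_norm, H.a2.1]; norm_num
  have h1 := H.iv
  -- `g2 - z` is a combination of `u`, `v`
  have e := coord (x := 0) H.D (g2 - z)
  rw [zero_add] at e
  have h2 : ip (g2 - z) (g2 - z) = 0 := by
    have h3 : ip (g2 - z) (g2 - z) = ip (((cU 0 u v (g2 - z) : ℝ) : ℂ) * u + ((cV 0 u v (g2 - z) : ℝ) : ℂ) * v) (g2 - z) := by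
      rw [← e]
    rw [h3, ip_add_left, ip_smul_left, ip_smul_left, h0, h1]
    ring
  linarith

/-- no `d` in the sector between `c` and `a` -/
theorem no_d (H : Fr U T z a b c d u v g1 g2) (h : Irr U T) :
    ∀ᶠ p in 𝓝 z, p ∈ Sec z u v → p ≠ z → d ∉ Pal U p :=
  excl h H.nu H.nv H.a2.1 H.a2.mem.le H.iv H.iu2 H.rc

/-- no `b` in the sector between `c` and `a` -/
theorem no_b (H : Fr U T z a b c d u v g1 g2) (h : Irr U T) :
    ∀ᶠ p in 𝓝 z, p ∈ Sec z u v → p ≠ z → b ∉ Pal U p := by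
  filter_upwards [H.swap.no_d h] with p hp h1 h2
  exact hp (by rw [Sec_comm]; exact h1) h2

/-- **two colours in the sector** -/
theorem two (H : Fr U T z a b c d u v g1 g2) (h : Irr U T) :
    ∀ᶠ p in 𝓝 z, p ∈ Sec z u v → p ≠ z → T p ⊆ {a, c} := by
  filter_upwards [H.no_b h, H.no_d h, h.nhd z] with p h1 h2 h3 hp hpz m hm
  have h4 := h3 hm
  rw [H.dpt.pal] at h4
  rcases h4 with rfl | rfl | rfl | h4
  · exact Or.inl rfl
  · exact absurd (h.sub _ hm) (h1 hp hpz)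
  · exact Or.inr rfl
  · rw [mem_singleton_iff] at h4
    subst h4
    exact absurd (h.sub _ hm) (h2 hp hpz)

theorem notU (H : Fr U T z a b c d u v g1 g2) (h : Irr U T) : z ∉ U a ∧ z ∉ U b ∧ z ∉ U c ∧ z ∉ U d := by
  have h1 : ∀ i ∈ T g1, z ∉ U i := fun i hi => h.mx.notMem (h.sub _ hi) (by rw [dist_comm]; exact H.a1.1)
  have h2 : ∀ i ∈ T g2, z ∉ U i := fun i hi => h.mx.notMem (h.sub _ hi) (by rw [dist_comm]; exact H.a2.1)
  rw [H.a1.mem] at h1
  rw [H.a2.mem] at h2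
  exact ⟨h1 a (by simp), h1 b (by simp), h2 c (by simp), h2 d (by simp)⟩

/-- the data of the sector lemma, colour `c`, and its radii -/
theorem secD (H : Fr U T z a b c d u v g1 g2) (h : Irr U T) : ∃ ρ₀ > 0, ∀ ρ, 0 < ρ → ρ ≤ ρ₀ →
    SecD U T z u v a c ρ ∧ (∀ r : ℝ, 0 < r → r < ρ → a ∉ Pal U (z + r * u)) ∧
      ∀ r : ℝ, 0 < r → r < ρ → c ∉ Pal U (z + r * v) := by
  obtain ⟨ρ1, h1, hb1⟩ := Metric.mem_nhds_iff.1 (H.two h)
  obtain ⟨δ1, hδ1, hs1⟩ := (mem_nhdsGT_iff_exists_Ioo_subset (a := (0 : ℝ))).1 ((H.rc : ∀ᶠ r : ℝ in 𝓝[>] 0, _).and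
    ((H.ra : ∀ᶠ r : ℝ in 𝓝[>] 0, _).and (H.na.and H.nc)))
  have hδ1 : 0 < δ1 := hδ1
  refine ⟨min ρ1 δ1, lt_min h1 hδ1, fun ρ hρ hle => ?_⟩
  have hρ1 := hle.trans (min_le_left _ _)
  have hρ2 := hle.trans (min_le_right _ _)
  have hall : ∀ r : ℝ, 0 < r → r < ρ → (z + r * u ∈ U c) ∧ (z + r * v ∈ U a) ∧
      (a ∉ Pal U (z + r * u) ∧ b ∉ Pal U (z + r * u)) ∧ c ∉ Pal U (z + r * v) ∧ d ∉ Pal U (z + r * v) :=
    fun r h2 h3 => hs1 ⟨h2, h3.trans_le hρ2⟩
  refine ⟨⟨H.nu, H.nv, H.D, hρ, h.sub _ (by rw [H.dpt.pal]; simp), fun p hp hpz hd => ?_,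
    fun r h2 h3 => subset_closure (hall r h2 h3).1, fun r h2 h3 => (hall r h2 h3).2.1⟩,
    fun r h2 h3 => (hall r h2 h3).2.2.1.1, fun r h2 h3 => (hall r h2 h3).2.2.2.1⟩
  exact hb1 (lt_of_lt_of_le hd hρ1) hp hpz

/-- the four sectors cover the plane -/
theorem cover (H : Fr U T z a b c d u v g1 g2) (p : ℂ) :
    p ∈ Sec z u v ∨ p ∈ Sec z u (-v) ∨ p ∈ Sec z (-u) v ∨ p ∈ Sec z (-u) (-v) := by
  have e := coord (x := z) H.D p
  rcases le_total 0 (cU z u v p) with h1 | h1 <;> rcases le_total 0 (cV z u v p) with h2 | h2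
  · exact Or.inl ⟨_, _, h1, h2, e⟩
  · exact Or.inr (Or.inl ⟨_, -cV z u v p, h1, by linarith, by push_cast; linear_combination e⟩)
  · exact Or.inr (Or.inr (Or.inl ⟨-cU z u v p, _, by linarith, h2, by push_cast; linear_combination e⟩))
  · exact Or.inr (Or.inr (Or.inr ⟨-cU z u v p, -cV z u v p, by linarith, by linarith, by
      push_cast; linear_combination e⟩))

/-- **(D-LINK)**, colour `c` -/
theorem dlink (H : Fr U T z a b c d u v g1 g2) (h : Irr U T) {ρ : ℝ} (hρ : 0 < ρ) :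
    ∀ᶠ w in 𝓝 z, c ∈ T w → (w ∈ U a → ff U a w ≤ ff U c w) → (w ∈ U b → ff U b w ≤ ff U c w) → Jn U c z ρ w := by
  obtain ⟨ρ1, h1, hs1⟩ := H.secD h
  obtain ⟨ρ2, h2, hs2⟩ := H.negv.secD h
  set ρ' := min ρ (min ρ1 ρ2) with hρ'
  have hρ0 : 0 < ρ' := lt_min hρ (lt_min h1 h2)
  obtain ⟨H1, n1, n1'⟩ := hs1 ρ' hρ0 ((min_le_right _ _).trans (min_le_left _ _))
  obtain ⟨H2, n2, n2'⟩ := hs2 ρ' hρ0 ((min_le_right _ _).trans (min_le_right _ _))
  obtain ⟨r1, hr1, hj1⟩ := sec_join' h H1 (H.notU h).1 n1 n1'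
  obtain ⟨r2, hr2, hj2⟩ := sec_join' h H2 (H.notU h).2.1 n2 n2'
  have hmono : ∀ w, Jn U c z ρ' w → Jn U c z ρ w := fun w ⟨Γ, k1, k2, k3, k4, k5⟩ =>
    ⟨Γ, k1, k2, k3, k4.trans (ball_subset_ball (min_le_left _ _)), k5⟩
  filter_upwards [ball_mem_nhds z hr1, ball_mem_nhds z hr2, H.negu.two h, H.negu.negv.two h] with w k1 k2 k3 k4 hc hA hB
  by_cases hwz : w = z
  · subst hwz
    refine ⟨{w}, isPreconnected_singleton, rfl, rfl, by rw [singleton_subset_iff]; exact mem_ball_self hρ, ?_⟩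
    rintro p rfl
    exact h.sub _ hc
  rcases H.cover w with h3 | h3 | h3 | h3
  · exact hmono w (hj1 w h3 k1 hA)
  · exact hmono w (hj2 w h3 k2 hB)
  · exfalso
    rcases k3 h3 hwz hc with h4 | h4
    · exact H.dpt.ac h4.symm
    · exact H.dpt.cd h4
  · exfalso
    rcases k4 h3 hwz hc with h4 | h4
    · exact H.dpt.bc h4.symm
    · exact H.dpt.cd h4

end Fr

end Vale.Agent.P032.H909
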