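import Vale.Agent.P032.H909.DLink
import Vale.Agent.P032.S5.H843.Core7
import Vale.Agent.P032.H357.CiCo

/-!
# P032: palettes chosen by depth near a two-pair point (frame `Irr U T`)

* `Deep U T z` : near `z` the palettes consist of the deepest ones of the colours of `T z`,
* `exists_fix` : near a two-pair point `z` of a frame with minimal palettes the palettes can be changed such that
  `Deep U T z` holds; all other data are kept,
* `dlink_all` (D-LINK) : with `Deep U T z` every point near `z` with the colour `q` of `T z` is joined to `z` in the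
  colour `q`,
* `ci_of`, `co_of` : the sources of `H357`,
* `noD_of_deep` : two-pair points may be assumed to be deep.
-/

open Set Filter Topology Metric

noncomputable section

namespace Vale.Agent.P032.H909

open Vale.Agent.P032.Six Vale.Agent.P032.S5.H410

section gen
variable {k : ℕ} {U : Fin k → Set ℂ} {T : ℂ → Set (Fin k)} {q : Fin k} {x u v w z g g1 g2 : ℂ} {a b c d : Fin k}

/-- near `z` only the deepest colours of `T z` are used -/
def Deep (U : Fin k → Set ℂ) (T : ℂ → Set (Fin k)) (z : ℂ) : Prop :=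
  ∀ᶠ w in 𝓝 z, ∀ i ∈ T w, ∀ j ∈ T z, ff U j w ≤ ff U i w

/-- minimal palettes -/
def Mnk (U : Fin k → Set ℂ) (T : ℂ → Set (Fin k)) : Prop :=
  ∀ z, 4 ≤ (T z).ncard → ∀ s, s ⊆ T z → (∀ᶠ w in 𝓝 z, ∃ i ∈ s, i ∈ Pal U w ∧ (w ∉ XX U → w ∈ U i)) → s = T z

/-- near a two-pair point at most two of its colours meet -/
theorem two_near (h : Irr U T) (hz : DPt T z a b c d) :
    ∀ᶠ w in 𝓝 z, w ≠ z → {i | i ∈ T z ∧ i ∈ Pal U w}.ncard ≤ 2 := by
  obtain ⟨u, v, g1, g2, H⟩ := Fr.exists_of h hz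
  have key : ∀ w, ∀ m n : Fin k, {i | i ∈ T z ∧ i ∈ Pal U w} ⊆ {m, n} → {i | i ∈ T z ∧ i ∈ Pal U w}.ncard ≤ 2 :=
    fun w m n hs => (Set.ncard_le_ncard hs (Set.toFinite _)).trans (Set.ncard_insert_le _ _ |>.trans (by simp))
  filter_upwards [H.no_b h, H.no_d h, H.negv.no_b h, H.negv.no_d h, H.negu.no_b h, H.negu.no_d h,
    H.negu.negv.no_b h, H.negu.negv.no_d h] with w k1 k2 k3 k4 k5 k6 k7 k8 hw
  rcases H.cover w with h3 | h3 | h3 | h3
  · refine key w a c fun i hi => ?_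
    obtain ⟨hi1, hi2⟩ := hi
    rw [hz.pal] at hi1
    rcases hi1 with rfl | rfl | rfl | hi1
    · simp
    · exact absurd hi2 (k1 h3 hw)
    · simp
    · rw [mem_singleton_iff] at hi1; subst hi1; exact absurd hi2 (k2 h3 hw)
  · refine key w b c fun i hi => ?_
    obtain ⟨hi1, hi2⟩ := hi
    rw [hz.pal] at hi1
    rcases hi1 with rfl | rfl | rfl | hi1
    · exact absurd hi2 (k3 h3 hw)
    · simp
    · simp
    · rw [mem_singleton_iff] at hi1; subst hi1; exact absurd hi2 (k4 h3 hw)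
  · refine key w a d fun i hi => ?_
    obtain ⟨hi1, hi2⟩ := hi
    rw [hz.pal] at hi1
    rcases hi1 with rfl | rfl | rfl | hi1
    · simp
    · exact absurd hi2 (k5 h3 hw)
    · exact absurd hi2 (k6 h3 hw)
    · rw [mem_singleton_iff] at hi1; subst hi1; simp
  · refine key w b d fun i hi => ?_
    obtain ⟨hi1, hi2⟩ := hi
    rw [hz.pal] at hi1
    rcases hi1 with rfl | rfl | rfl | hi1
    · exact absurd hi2 (k7 h3 hw)
    · simp
    · exact absurd hi2 (k8 h3 hw)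
    · rw [mem_singleton_iff] at hi1; subst hi1; simp

theorem suff_irr (h : Irr U T) (x : ℂ) : ∀ᶠ w in 𝓝 x, ∃ i ∈ T x, i ∈ Pal U w ∧ (w ∉ XX U → w ∈ U i) := by
  filter_upwards [h.nhd x] with w hw
  obtain ⟨i, hi⟩ := h.ne w
  exact ⟨i, hw hi, h.sub w hi, fun hX => h.off w hX i hi⟩

/-- **the palettes near a two-pair point may be chosen by depth** -/
theorem exists_fix (h : Irr U T) (hmin : Mnk U T) (hz : DPt T z a b c d) {ρ : ℝ} (hρ : 0 < ρ) : ∃ T', Irr U T' ∧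
    Mnk U T' ∧ DPt T' z a b c d ∧ Deep U T' z ∧ T' z = T z ∧ (∀ w, w ∉ ball z ρ → T' w ⊆ T w) ∧
    ∀ w, w ∉ ball z ρ → 4 ≤ (T w).ncard → T' w = T w := by
  classical
  obtain ⟨ρ1, hρ1, hb⟩ := Metric.mem_nhds_iff.1 ((h.nhd z).and (two_near h hz))
  set r := min (ρ1 / 2) (min (ρ / 2) (1 / 2)) with hr
  have hr0 : 0 < r := by positivity
  have hr1 : r < ρ1 := lt_of_le_of_lt (min_le_left _ _) (by linarith)
  have hr2 : r < ρ := lt_of_le_of_lt ((min_le_right _ _).trans (min_le_left _ _)) (by linarith)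
  have hr3 : r < 1 := lt_of_le_of_lt ((min_le_right _ _).trans (min_le_right _ _)) (by norm_num)
  have hnb : ∀ w ∈ closedBall z r, T w ⊆ T z ∧ (w ≠ z → {i | i ∈ T z ∧ i ∈ Pal U w}.ncard ≤ 2) := fun w hw =>
    hb (lt_of_le_of_lt hw hr1)
  set T₁ : ℂ → Set (Fin k) := fun w => {i | (i ∈ Ks U (T z) w ∧ w ∈ closedBall z r) ∨ (i ∈ T w ∧ w ∉ ball z r)} with hT₁
  have hgood : ∀ w ∈ closedBall z r, (Ks U (T z) w).Nonempty ∧ Ks U (T z) w ⊆ PU U w := by
    intro w hw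
    obtain ⟨i, hi⟩ := h.ne w
    exact Ks_good h.mx (T z) w ⟨i, (hnb w hw).1 hi, h.sub w hi, fun hX => h.off w hX i hi⟩
  obtain ⟨T', hc', hn', hs', hp'⟩ := exists_pure T₁ (fun i => by
    have e : {x | i ∈ T₁ x} = ({x | i ∈ Ks U (T z) x} ∩ closedBall z r) ∪ ({x | i ∈ T x} ∩ (ball z r)ᶜ) := by
      ext x; simp [T₁]
    rw [e]
    exact ((Ks_closed U (T z) i).inter isClosed_closedBall).union ((h.closed i).inter isOpen_ball.isClosed_compl))
    (fun w => by
      by_cases hw : w ∈ closedBall z r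
      · obtain ⟨i, hi⟩ := (hgood w hw).1
        exact ⟨i, Or.inl ⟨hi, hw⟩⟩
      · obtain ⟨i, hi⟩ := h.ne w
        exact ⟨i, Or.inr ⟨hi, fun h1 => hw (ball_subset_closedBall h1)⟩⟩)
  have hPU : ∀ w, T₁ w ⊆ PU U w := by
    rintro w i (⟨hi, hw⟩ | ⟨hi, -⟩)
    · exact (hgood w hw).2 hi
    · exact ⟨h.sub w hi, fun hX => h.off w hX i hi⟩
  have h' : Irr U T' := ⟨h.mx, h.max, hc', hn', fun x i hi => (hPU x (hs' x hi)).1,
    fun x hX i hi => (hPU x (hs' x hi)).2 hX, hp'⟩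
  -- outside the closed ball
  have hout : ∀ w, w ∉ closedBall z r → T' w ⊆ T w := by
    intro w hw i hi
    rcases hs' w hi with ⟨-, h1⟩ | ⟨h1, -⟩
    · exact absurd h1 hw
    · exact h1
  have hin : ∀ w ∈ ball z r, T' w ⊆ Ks U (T z) w := by
    intro w hw i hi
    rcases hs' w hi with ⟨h1, -⟩ | ⟨-, h1⟩
    · exact h1
    · exact absurd hw h1
  have hcb : ∀ w ∈ closedBall z r, T' w ⊆ {i | i ∈ T z ∧ i ∈ Pal U w} := by
    intro w hw i hi
    refine ⟨?_, h'.sub w hi⟩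
    rcases hs' w hi with ⟨h1, -⟩ | ⟨h1, -⟩
    · exact h1.1
    · exact (hnb w hw).1 h1
  have htwo : ∀ w ∈ closedBall z r, w ≠ z → (T' w).ncard ≤ 2 := fun w hw hwz =>
    (Set.ncard_le_ncard (hcb w hw) (Set.toFinite _)).trans ((hnb w hw).2 hwz)
  have hzz : T' z ⊆ T z := fun i hi => (hcb z (mem_closedBall_self hr0.le) hi).1
  have h4z : (T z).ncard = 4 := by
    rw [hz.pal, Set.ncard_insert_of_notMem, Set.ncard_insert_of_notMem, Set.ncard_pair hz.cd]
    · simp only [mem_insert_iff, mem_singleton_iff, not_or]; exact ⟨hz.bc, hz.bd⟩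
    · simp only [mem_insert_iff, mem_singleton_iff, not_or]; exact ⟨hz.ab, hz.ac, hz.ad⟩
  have hsub4 : ∀ x, T' x ⊆ T x → 4 ≤ (T x).ncard → T' x = T x := fun x hx h4 =>
    hmin x h4 _ hx (suff_irr h' x)
  have hTz : T' z = T z := hsub4 z hzz h4z.ge
  have hcase : ∀ x, 4 ≤ (T' x).ncard → T' x = T x := by
    intro x hx
    have h1 : T' x ⊆ T x := by
      by_cases hxb : x ∈ closedBall z r
      · by_cases hxz : x = z
        · rw [hxz]; exact hzz
        · have := htwo x hxb hxz; omega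
      · exact hout x hxb
    exact hsub4 x h1 (hx.trans (Set.ncard_le_ncard h1 (Set.toFinite _)))
  have harc : ∀ p, ∀ m n : Fin k, m ∈ T z → n ∈ T z → Arc T z p {m, n} → Arc T' z p {m, n} := by
    intro p m n hm hn hp
    refine ⟨hp.1, ?_⟩
    filter_upwards [hp.2, self_mem_nhdsWithin] with y hy hy1
    have hy1 : dist y z = 1 := hy1
    have h1 : T' y ⊆ {m, n} := by
      rw [← hy]
      exact hout y fun h2 => by rw [mem_closedBall, hy1] at h2; linarith
    have h2 : ∀ i ∈ T z, ¬ T' y ⊆ {i} := fun i hi hcon =>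
      h.mx.notMem' (h'.mem_of_single hcon) hy1 (h.sub z hi)
    refine Subset.antisymm h1 ?_
    rintro i (rfl | hi)
    · by_contra hcon
      refine h2 n hn fun j hj => ?_
      rcases h1 hj with h3 | h3
      · exact absurd (h3 ▸ hj) hcon
      · exact h3
    · rw [mem_singleton_iff] at hi
      subst hi
      by_contra hcon
      refine h2 m hm fun j hj => ?_
      rcases h1 hj with h3 | h3
      · exact h3
      · rw [mem_singleton_iff] at h3
        exact absurd (h3 ▸ hj) hcon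
  refine ⟨T', h', fun x hx s hs hsuf => ?_, ⟨by rw [hTz]; exact hz.pal, hz.ac, hz.ad, hz.bc, hz.bd, hz.ab, hz.cd, ?_, ?_⟩,
    ?_, hTz, fun w hw => hout w fun h1 => hw (closedBall_subset_ball hr2 h1), fun w hw h4 => ?_⟩
  · have h1 := hcase x hx
    rw [h1] at hs ⊢
    exact hmin x (by rw [← h1]; exact hx) s hs hsuf
  · obtain ⟨p, hp⟩ := hz.arc1
    exact ⟨p, harc p a b (by rw [hz.pal]; simp) (by rw [hz.pal]; simp) hp⟩
  · obtain ⟨p, hp⟩ := hz.arc2
    exact ⟨p, harc p c d (by rw [hz.pal]; simp) (by rw [hz.pal]; simp) hp⟩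
  · filter_upwards [ball_mem_nhds z hr0] with w hw i hi j hj
    rw [hTz] at hj
    exact (hin w hw hi).2.2 j hj
  · exact hsub4 w (hout w fun h1 => hw (closedBall_subset_ball hr2 h1)) h4

/-- **(D-LINK)** -/
theorem dlink_all (h : Irr U T) (hz : DPt T z a b c d) (hd : Deep U T z) (hq : q ∈ T z) {ρ : ℝ} (hρ : 0 < ρ) :
    ∀ᶠ w in 𝓝 z, q ∈ T w → Jn U q z ρ w := by
  obtain ⟨u, v, g1, g2, H⟩ := Fr.exists_of h hz
  have ha : a ∈ T z := by rw [hz.pal]; simp
  have hb : b ∈ T z := by rw [hz.pal]; simp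
  have hc : c ∈ T z := by rw [hz.pal]; simp
  have hdd : d ∈ T z := by rw [hz.pal]; simp
  rw [hz.pal] at hq
  rcases hq with rfl | rfl | rfl | hq
  · filter_upwards [hd, H.swap.dlink h hρ] with w h1 h2 h3
    exact h2 h3 (fun _ => h1 _ h3 _ hc) fun _ => h1 _ h3 _ hdd
  · filter_upwards [hd, H.negv.swap.dlink h hρ] with w h1 h2 h3
    exact h2 h3 (fun _ => h1 _ h3 _ hc) fun _ => h1 _ h3 _ hdd
  · filter_upwards [hd, H.dlink h hρ] with w h1 h2 h3
    exact h2 h3 (fun _ => h1 _ h3 _ ha) fun _ => h1 _ h3 _ hb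
  · rw [mem_singleton_iff] at hq
    subst hq
    filter_upwards [hd, H.negu.dlink h hρ] with w h1 h2 h3
    exact h2 h3 (fun _ => h1 _ h3 _ ha) fun _ => h1 _ h3 _ hb

/-- **LINK**, inner form: `q` occurs at `z` inside the disc about `y`: all points near `y` with `q` in `Pal` are in the
closed disc about `z` -/
theorem link_near (h : Irr U T) (hz : DPt T z a b c d) (hd : Deep U T z) (hq : q ∈ T z) {y : ℂ}
    (hy : ∃ᶠ w in 𝓝 z, q ∈ T w ∧ dist w y < 1) : ∀ᶠ p in 𝓝 y, q ∈ Pal U p → dist p z ≤ 1 := by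
  obtain ⟨w, ⟨hw, hwy⟩, hj⟩ := (hy.and_eventually (dlink_all h hz hd hq one_pos)).exists
  obtain ⟨Γ, h1, h2, h3, -, h5⟩ := hj hw
  have h6 : ∀ᶠ p in 𝓝 y, dist w p < 1 := (continuous_const.dist continuous_id).continuousAt.eventually_lt_const hwy
  filter_upwards [h6] with p h7 h8
  by_contra hcon
  push Not at hcon
  exact h.mx.wlemma h1 (fun x hx => h5 x hx) h2 h3 h7 (by rw [dist_comm]; exact hcon) h8

/-- **LINK**, outer form -/
theorem link_far (h : Irr U T) (hz : DPt T z a b c d) (hd : Deep U T z) (hq : q ∈ T z) {y : ℂ}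
    (hy : ∃ᶠ w in 𝓝 z, q ∈ T w ∧ 1 < dist w y) : ∀ᶠ p in 𝓝 y, q ∈ Pal U p → 1 ≤ dist p z := by
  obtain ⟨w, ⟨hw, hwy⟩, hj⟩ := (hy.and_eventually (dlink_all h hz hd hq one_pos)).exists
  obtain ⟨Γ, h1, h2, h3, -, h5⟩ := hj hw
  have h6 : ∀ᶠ p in 𝓝 y, 1 < dist w p := (continuous_const.dist continuous_id).continuousAt.eventually_const_lt hwy
  filter_upwards [h6] with p h7 h8
  by_contra hcon
  push Not at hcon
  exact h.mx.wlemma h1 (fun x hx => h5 x hx) h3 h2 (by rw [dist_comm]; exact hcon) h7 h8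

/-- a colour of `T z` in `Pal y`, `|y - z| = 1`, occurs at `z` on one side of `S(y)` only -/
theorem one_side (h : Irr U T) (hz : DPt T z a b c d) (hd : Deep U T z) (hq : q ∈ T z) {y : ℂ} (hqy : q ∈ Pal U y) :
    (∀ᶠ w in 𝓝 z, q ∈ T w → 1 ≤ dist w y) ∨ ∀ᶠ w in 𝓝 z, q ∈ T w → dist w y ≤ 1 := by
  by_contra hcon
  push Not at hcon
  obtain ⟨h1, h2⟩ := hcon
  obtain ⟨w, ⟨hw, hwy⟩, hj⟩ := (h1.and_eventually (dlink_all h hz hd hq one_pos)).exists
  obtain ⟨w', ⟨hw', hwy'⟩, hj'⟩ := (h2.and_eventually (dlink_all h hz hd hq one_pos)).exists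
  obtain ⟨Γ, k1, k2, k3, -, k5⟩ := hj hw
  obtain ⟨Γ', k1', k2', k3', -, k5'⟩ := hj' hw'
  exact h.mx.wlemma (k1.union z k3 k3' k1') (by
    rintro p (hp | hp)
    · exact k5 p hp
    · exact k5' p hp) (Or.inl k2) (Or.inr k2') hwy hwy' hqy

end gen

/-! ### six colours -/

section six
variable {U : Fin 6 → Set ℂ} {T : ℂ → Set (Fin 6)} {a b c d q : Fin 6} {z y : ℂ}

theorem ci_of (h : Irr U T) (hz : DPt T z a b c d) (hd : Deep U T z) (hq : q ∈ T z)
    (hy : ∃ᶠ w in 𝓝 z, q ∈ T w ∧ dist w y < 1) : H357.Ci U q z y := by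
  obtain ⟨w, ⟨hw, hwy⟩, hj⟩ := (hy.and_eventually (dlink_all h hz hd hq one_pos)).exists
  obtain ⟨Γ, h1, h2, h3, -, h5⟩ := hj hw
  exact ⟨Γ, h1, fun p hp => h5 p hp, h3, w, h2, hwy⟩

theorem co_of (h : Irr U T) (hz : DPt T z a b c d) (hd : Deep U T z) (hq : q ∈ T z)
    (hy : ∃ᶠ w in 𝓝 z, q ∈ T w ∧ 1 < dist w y) : H357.Co U q z y := by
  obtain ⟨w, ⟨hw, hwy⟩, hj⟩ := (hy.and_eventually (dlink_all h hz hd hq one_pos)).exists
  obtain ⟨Γ, h1, h2, h3, -, h5⟩ := hj hw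
  exact ⟨Γ, h1, fun p hp => h5 p hp, h3, w, h2, hwy⟩

theorem mnk_iff : Mnk U T ↔ Mn U T := by
  have key : ∀ (s : Set (Fin 6)) (w : ℂ), (∃ i ∈ s, i ∈ Pal U w ∧ (w ∉ XX U → w ∈ U i)) ↔
      ∃ i ∈ s, w ∈ U i ∨ (w ∈ XX U ∧ i ∈ Pal U w) := by
    intro s w
    constructor
    · rintro ⟨i, hi, h1, h2⟩
      by_cases hw : w ∈ XX U
      · exact ⟨i, hi, Or.inr ⟨hw, h1⟩⟩
      · exact ⟨i, hi, Or.inl (h2 hw)⟩
    · rintro ⟨i, hi, h1 | ⟨h1, h2⟩⟩
      · exact ⟨i, hi, subset_closure h1, fun _ => h1⟩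
      · exact ⟨i, hi, h2, fun h3 => absurd h1 h3⟩
  constructor
  · intro H z h4 s hs hne hev
    exact hne (H z h4 s hs (hev.mono fun w hw => (key s w).2 hw))
  · intro H z h4 s hs hev
    by_contra hne
    exact H z h4 s hs hne (hev.mono fun w hw => (key s w).1 hw)

/-- two-pair points may be assumed to be deep -/
theorem noD_of_deep (hD : ∀ (U : Fin 6 → Set ℂ) (T : ℂ → Set (Fin 6)) (z : ℂ) (a b c d : Fin 6), Irr U T → Mn U T →
    DPt T z a b c d → Deep U T z → False) (h : Irr U T) (hmin : Mn U T) (hz : DPt T z a b c d) : False := by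
  obtain ⟨T', h1, h2, h3, h4, -⟩ := exists_fix h (mnk_iff.2 hmin) hz one_pos
  exact hD U T' z a b c d h1 (mnk_iff.1 h2) h3 h4

end six

end Vale.Agent.P032.H909
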