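import Vale.Agent.P032.S5.H80.Ray
import Vale.Agent.P032.S5.H410.Min

/-!
# P032: two colours in a sector (frame `Irr U T`)

* `two_arc` (TWO) : a point off `U i` has a unit circle without points of `U i` through it; in a region with the colours
  `i, j` only it carries `j`,
* `Sec x u v` : the closed sector at `x` spanned by `u`, `v`,
* `exit_path` : a path leaving the sector does so on one of the rays or at `x`,
* `arc_exit` : a unit circle through a point of the sector near `x` leaves the sector near `x`,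
* `sec_join` (SEC) : a sector with the colours `i, j`, bounded by a ray of `j` and a ray of `i`: the points off `U i`
  are joined to `x` in the colour `j`,
* `sec_join'` : the same for the points of `U i` at which `j` is at least as deep as `i`.
-/

open Set Filter Topology Metric

noncomputable section

namespace Vale.Agent.P032.H909

open Vale.Agent.P032.Six Vale.Agent.P032.S5.H410

variable {k : ℕ} {U : Fin k → Set ℂ} {T : ℂ → Set (Fin k)} {i j : Fin k} {x u v w z : ℂ}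

/-- **(TWO)** -/
theorem two_arc (h : Irr U T) (hw : w ∉ U i) : ∃ y, dist w y = 1 ∧ ∀ p, dist p y = 1 → p ∉ U i ∧
    (T p ⊆ {i, j} → j ∈ T p) := by
  obtain ⟨y, hy, hi⟩ := h.partner hw
  refine ⟨y, hy, fun p hp => ?_⟩
  have h1 : p ∉ U i := fun h1 => h.mx.notMem' h1 hp hi
  refine ⟨h1, fun hT => ?_⟩
  by_contra hj
  refine h1 (h.mem_of_single fun m hm => ?_)
  rcases hT hm with h2 | h2
  · exact h2
  · exact absurd (h2 ▸ hm) hj

/-! ### the sector -/

/-- the closed sector at `x` spanned by `u`, `v` -/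
def Sec (x u v : ℂ) : Set ℂ := {p | ∃ α β : ℝ, 0 ≤ α ∧ 0 ≤ β ∧ p = x + α * u + β * v}

/-- first coordinate -/
def cU (x u v p : ℂ) : ℝ := cr (p - x) v / cr u v

/-- second coordinate -/
def cV (x u v p : ℂ) : ℝ := cr u (p - x) / cr u v

theorem cr_expand (a u v : ℂ) : (cr u v : ℂ) * a = cr a v * u + cr u a * v := by
  apply Complex.ext
  · simp [cr]; ring
  · simp [cr]; ring

theorem coord (hD : cr u v ≠ 0) (p : ℂ) : p = x + cU x u v p * u + cV x u v p * v := by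
  have h1 := cr_expand (p - x) u v
  have hD' : ((cr u v : ℝ) : ℂ) ≠ 0 := by exact_mod_cast hD
  unfold cU cV
  push_cast
  field_simp
  linear_combination h1

theorem cU_mk (hD : cr u v ≠ 0) (α β : ℝ) : cU x u v (x + α * u + β * v) = α := by
  unfold cU
  rw [div_eq_iff hD]
  simp [cr]; ring

theorem cV_mk (hD : cr u v ≠ 0) (α β : ℝ) : cV x u v (x + α * u + β * v) = β := by
  unfold cV
  rw [div_eq_iff hD]
  simp [cr]; ring

theorem mem_Sec (hD : cr u v ≠ 0) {p : ℂ} : p ∈ Sec x u v ↔ 0 ≤ cU x u v p ∧ 0 ≤ cV x u v p := by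
  constructor
  · rintro ⟨α, β, h1, h2, rfl⟩
    rw [cU_mk hD, cV_mk hD]
    exact ⟨h1, h2⟩
  · rintro ⟨h1, h2⟩
    exact ⟨_, _, h1, h2, coord hD p⟩

theorem continuous_cU (x u v : ℂ) : Continuous (cU x u v) := by
  unfold cU cr; fun_prop

theorem continuous_cV (x u v : ℂ) : Continuous (cV x u v) := by
  unfold cV cr; fun_prop

theorem Sec_comm (x u v : ℂ) : Sec x u v = Sec x v u := by
  ext p
  constructor
  · rintro ⟨α, β, h1, h2, rfl⟩; exact ⟨β, α, h2, h1, by ring⟩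
  · rintro ⟨α, β, h1, h2, rfl⟩; exact ⟨β, α, h2, h1, by ring⟩

/-- the point where a path leaves the sector -/
theorem exit_path (hD : cr u v ≠ 0) {γ : ℝ → ℂ} (hγ : Continuous γ) {δ : ℝ} (hδ : 0 ≤ δ)
    (h0 : γ 0 ∈ Sec x u v) (h1 : γ δ ∉ Sec x u v) : ∃ t ∈ Icc 0 δ, (∀ s ∈ Icc 0 t, γ s ∈ Sec x u v) ∧
      ((∃ α : ℝ, 0 ≤ α ∧ γ t = x + α * u) ∨ ∃ β : ℝ, 0 ≤ β ∧ γ t = x + β * v) := by
  set g : ℝ → ℝ := fun s => min (cU x u v (γ s)) (cV x u v (γ s)) with hg
  have hgc : Continuous g := ((continuous_cU x u v).comp hγ).min ((continuous_cV x u v).comp hγ)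
  have hgs : ∀ s, 0 ≤ g s ↔ γ s ∈ Sec x u v := fun s => by rw [mem_Sec hD, hg, le_min_iff]
  have g0 : 0 ≤ g 0 := (hgs 0).2 h0
  have g1 : g δ < 0 := not_le.1 fun h2 => h1 ((hgs δ).1 h2)
  obtain ⟨s, hs, hs0⟩ := intermediate_value_Icc' hδ hgc.continuousOn ⟨g1.le, g0⟩
  have hB : IsCompact (Icc 0 δ ∩ g ⁻¹' {0}) := isCompact_Icc.inter_right (isClosed_singleton.preimage hgc)
  obtain ⟨t, ⟨htI, ht0⟩, htl⟩ := hB.exists_isLeast ⟨s, hs, hs0⟩
  have ht0 : g t = 0 := ht0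
  have hall : ∀ s ∈ Icc 0 t, 0 ≤ g s := by
    intro s hs
    by_contra hcon
    push Not at hcon
    obtain ⟨r, hr, hr0⟩ := intermediate_value_Icc' hs.1 hgc.continuousOn ⟨hcon.le, g0⟩
    have h3 := htl ⟨⟨hr.1, (hr.2.trans hs.2).trans htI.2⟩, hr0⟩
    have h4 : r = s := le_antisymm hr.2 (hs.2.trans h3)
    rw [h4] at hr0
    exact absurd hr0 hcon.ne
  refine ⟨t, htI, fun s hs => (hgs s).1 (hall s hs), ?_⟩
  have h5 := (mem_Sec hD).1 ((hgs t).1 ht0.ge)
  have h6 := coord (x := x) hD (γ t)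
  rcases min_choice (cU x u v (γ t)) (cV x u v (γ t)) with h7 | h7
  · right
    have h8 : cU x u v (γ t) = 0 := by rw [← h7]; exact ht0
    rw [h8] at h6
    exact ⟨_, h5.2, by rw [h6, cV_mk hD]; simp⟩
  · left
    have h8 : cV x u v (γ t) = 0 := by rw [← h7]; exact ht0
    rw [h8] at h6
    exact ⟨_, h5.1, by rw [h6, cU_mk hD]; simp⟩

theorem abs_cr_le (a b : ℂ) : |cr a b| ≤ ‖a‖ * ‖b‖ := by
  have h1 : cr a b ^ 2 + ip a b ^ 2 = ‖a‖ ^ 2 * ‖b‖ ^ 2 := by
    rw [Complex.sq_norm, Complex.sq_norm, Complex.normSq_apply, Complex.normSq_apply]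
    unfold cr ip; ring
  refine abs_le_of_sq_le_sq ?_ (by positivity)
  nlinarith [sq_nonneg (ip a b)]

theorem norm_cis_sub_one_le (s : ℝ) : ‖cis s - 1‖ ≤ |s| := by
  have h1 : cis s - 1 = Complex.exp (Complex.I * s) - 1 := by unfold cis; rw [mul_comm]
  rw [h1]
  have := Real.norm_exp_I_mul_ofReal_sub_one_le (x := s)
  simpa using this

theorem norm_cis_sub_le {s : ℝ} (hs : |s| ≤ 1) : ‖cis s - 1 - s * Complex.I‖ ≤ s ^ 2 := by
  have h1 : ‖(s : ℂ) * Complex.I‖ ≤ 1 := by simpa using hs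
  have h2 := Complex.norm_exp_sub_one_sub_id_le h1
  unfold cis
  simpa using h2

/-- a unit circle through a point of the sector near `x` leaves the sector near `x` -/
theorem arc_exit (hu : ‖u‖ = 1) (hv : ‖v‖ = 1) (hD : cr u v ≠ 0) {ρ : ℝ} (hρ : 0 < ρ) : ∃ r > 0,
    ∀ w ∈ Sec x u v, dist w x < r → ∀ y, dist w y = 1 → ∃ (γ : ℝ → ℂ) (t : ℝ), Continuous γ ∧ 0 ≤ t ∧ γ 0 = w ∧
      (∀ s ∈ Icc 0 t, γ s ∈ Sec x u v ∧ dist (γ s) x < ρ ∧ dist (γ s) y = 1) ∧
      ((∃ α : ℝ, 0 ≤ α ∧ γ t = x + α * u) ∨ ∃ β : ℝ, 0 ≤ β ∧ γ t = x + β * v) := by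
  set D := cr u v with hDdef
  have hDpos : 0 < |D| := abs_pos.2 hD
  have hD1 : |D| ≤ 1 := by
    have := abs_cr_le u v
    rw [hu, hv, mul_one] at this
    exact this
  -- functionals
  have bU : ∀ q : ℂ, |cr q v / D| ≤ ‖q‖ / |D| := by
    intro q
    rw [abs_div]
    gcongr
    have := abs_cr_le q v
    rwa [hv, mul_one] at this
  have bV : ∀ q : ℂ, |cr u q / D| ≤ ‖q‖ / |D| := by
    intro q
    rw [abs_div]
    gcongr
    have := abs_cr_le u q
    rwa [hu, one_mul] at this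
  set δ := min (ρ / 4) (|D| / 4) with hδ
  have hδ0 : 0 < δ := by positivity
  have hδρ : δ ≤ ρ / 4 := min_le_left _ _
  have hδD : δ ≤ |D| / 4 := min_le_right _ _
  refine ⟨min (ρ / 4) (|D| * δ / 8), by positivity, fun w hw hwx y hwy => ?_⟩
  have hw1 : dist w x < ρ / 4 := lt_of_lt_of_le hwx (min_le_left _ _)
  have hw2 : dist w x < |D| * δ / 8 := lt_of_lt_of_le hwx (min_le_right _ _)
  have hn : ‖w - y‖ = 1 := by rw [← dist_eq_norm]; exact hwy
  set τ := Complex.I * (w - y) with hτ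
  have hτ1 : ‖τ‖ = 1 := by rw [hτ, norm_mul, Complex.norm_I, one_mul, hn]
  -- the sign
  obtain ⟨σ, hσ, hsum⟩ : ∃ σ : ℝ, (σ = 1 ∨ σ = -1) ∧ σ * (cr τ v / D + cr u τ / D) ≤ 0 := by
    rcases le_total (cr τ v / D + cr u τ / D) 0 with h1 | h1
    · exact ⟨1, Or.inl rfl, by linarith⟩
    · exact ⟨-1, Or.inr rfl, by linarith⟩
  have hσ2 : |σ| = 1 := by rcases hσ with rfl | rfl <;> simp
  have hmin : σ * (cr τ v / D) ≤ -(1 / 2) ∨ σ * (cr u τ / D) ≤ -(1 / 2) := by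
    by_contra hcon
    push Not at hcon
    obtain ⟨h1, h2⟩ := hcon
    have e := coord (x := 0) hD τ
    unfold cU cV at e
    rw [sub_zero, zero_add] at e
    have h3 : ‖τ‖ ≤ |cr τ v / D| + |cr u τ / D| := by
      calc ‖τ‖ = ‖((cr τ v / cr u v : ℝ) : ℂ) * u + ((cr u τ / cr u v : ℝ) : ℂ) * v‖ := by rw [← e]
        _ ≤ _ := norm_add_le _ _
        _ = _ := by rw [norm_mul, norm_mul, hu, hv, mul_one, mul_one, Complex.norm_real, Complex.norm_real,
              Real.norm_eq_abs, Real.norm_eq_abs]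
    have h4 : |cr τ v / D| < 1 / 2 := by
      rw [← one_mul |cr τ v / D|, ← hσ2, ← abs_mul, abs_lt]
      constructor <;> nlinarith
    have h5 : |cr u τ / D| < 1 / 2 := by
      rw [← one_mul |cr u τ / D|, ← hσ2, ← abs_mul, abs_lt]
      constructor <;> nlinarith
    rw [hτ1] at h3
    linarith
  set γ : ℝ → ℂ := fun s => y + (w - y) * cis (σ * s) with hγ
  have hγc : Continuous γ := by
    have := continuous_cis
    have h1 : Continuous fun s : ℝ => cis (σ * s) := this.comp (by fun_prop)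
    exact continuous_const.add (continuous_const.mul h1)
  have hγ0 : γ 0 = w := by simp [hγ, cis]
  have hγy : ∀ s, dist (γ s) y = 1 := by
    intro s
    rw [dist_eq_norm, hγ]
    simp only [add_sub_cancel_left]
    rw [norm_mul, hn, norm_cis, one_mul]
  have hγw : ∀ s, 0 ≤ s → dist (γ s) w ≤ s := by
    intro s hs
    have e1 : γ s - w = (w - y) * (cis (σ * s) - 1) := by rw [hγ]; ring
    rw [dist_eq_norm, e1, norm_mul, hn, one_mul]
    refine (norm_cis_sub_one_le _).trans ?_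
    rw [abs_mul, hσ2, one_mul, abs_of_nonneg hs]
  have hδ1 : δ ≤ 1 := by linarith
  -- the error
  have herr : ‖γ δ - w - (σ * δ : ℝ) * τ‖ ≤ δ ^ 2 := by
    have e1 : γ δ - w - (σ * δ : ℝ) * τ = (w - y) * (cis (σ * δ) - 1 - (σ * δ : ℝ) * Complex.I) := by
      rw [hγ, hτ]; ring
    rw [e1, norm_mul, hn, one_mul]
    refine (norm_cis_sub_le ?_).trans ?_
    · rw [abs_mul, hσ2, one_mul, abs_of_pos hδ0]; exact hδ1
    · rw [mul_pow]
      have : σ ^ 2 = 1 := by rcases hσ with rfl | rfl <;> norm_num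
      rw [this, one_mul]
  have hexit : γ δ ∉ Sec x u v := by
    rw [mem_Sec hD]
    rintro ⟨h1, h2⟩
    have hwx' : ‖w - x‖ < |D| * δ / 8 := by rw [← dist_eq_norm]; exact hw2
    have key : ∀ L : ℂ → ℝ, (∀ a b, L (a + b) = L a + L b) → (∀ (c : ℝ) a, L (c * a) = c * L a) →
        (∀ q, |L q| ≤ ‖q‖ / |D|) → σ * L τ ≤ -(1 / 2) → 0 ≤ L (γ δ - x) → False := by
      intro L hadd hmul hb hL hpos
      have e2 : γ δ - x = (w - x) + ((σ * δ : ℝ) * τ + (γ δ - w - (σ * δ : ℝ) * τ)) := by ring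
      rw [e2, hadd, hadd, hmul] at hpos
      have h3 := (le_abs_self _).trans (hb (w - x))
      have h4 := (le_abs_self _).trans (hb (γ δ - w - (σ * δ : ℝ) * τ))
      have h5 : ‖w - x‖ / |D| < δ / 8 := by
        rw [div_lt_iff₀ hDpos]; linarith
      have h6 : ‖γ δ - w - (σ * δ : ℝ) * τ‖ / |D| ≤ δ / 4 := by
        rw [div_le_iff₀ hDpos]
        refine herr.trans ?_
        nlinarith
      have h7 : σ * δ * L τ ≤ -(1 / 2) * δ := by nlinarith
      linarith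
    rcases hmin with h3 | h3
    · refine key (fun q => cr q v / D) (fun a b => ?_) (fun c a => ?_) bU h3 h1
      · simp only [cr, Complex.add_re, Complex.add_im]; ring
      · simp only [cr, Complex.mul_re, Complex.mul_im, Complex.ofReal_re, Complex.ofReal_im]; ring
    · refine key (fun q => cr u q / D) (fun a b => ?_) (fun c a => ?_) bV h3 h2
      · simp only [cr, Complex.add_re, Complex.add_im]; ring
      · simp only [cr, Complex.mul_re, Complex.mul_im, Complex.ofReal_re, Complex.ofReal_im]; ring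
  obtain ⟨t, ht, hin, hend⟩ := exit_path hD hγc hδ0.le (by rw [hγ0]; exact hw) hexit
  refine ⟨γ, t, hγc, ht.1, hγ0, fun s hs => ⟨hin s hs, ?_, hγy s⟩, hend⟩
  have h8 := hγw s hs.1
  have h9 := dist_triangle (γ s) w x
  have h10 : s ≤ δ := hs.2.trans ht.2
  linarith

/-! ### joining in a colour -/

/-- `w` and `x` are joined in the closure of `U j` inside the disc of radius `ρ` -/
def Jn (U : Fin k → Set ℂ) (j : Fin k) (x : ℂ) (ρ : ℝ) (w : ℂ) : Prop :=
  ∃ Γ : Set ℂ, IsPreconnected Γ ∧ w ∈ Γ ∧ x ∈ Γ ∧ Γ ⊆ ball x ρ ∧ ∀ p ∈ Γ, j ∈ Pal U p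

/-- the hypotheses of the sector lemma -/
structure SecD (U : Fin k → Set ℂ) (T : ℂ → Set (Fin k)) (x u v : ℂ) (i j : Fin k) (ρ : ℝ) : Prop where
  hu : ‖u‖ = 1
  hv : ‖v‖ = 1
  hD : cr u v ≠ 0
  hρ : 0 < ρ
  xj : j ∈ Pal U x
  two : ∀ p ∈ Sec x u v, p ≠ x → dist p x < ρ → T p ⊆ {i, j}
  ru : ∀ r : ℝ, 0 < r → r < ρ → x + r * u ∈ closure (U j)
  rv : ∀ r : ℝ, 0 < r → r < ρ → x + r * v ∈ U i

/-- **(SEC)** -/
theorem sec_join (h : Irr U T) {ρ : ℝ} (H : SecD U T x u v i j ρ) : ∃ r > 0, ∀ w ∈ Sec x u v, dist w x < r →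
    w ∉ U i → Jn U j x ρ w := by
  obtain ⟨r, hr, hex⟩ := arc_exit (x := x) H.hu H.hv H.hD H.hρ
  refine ⟨r, hr, fun w hw hwx hwi => ?_⟩
  obtain ⟨y, hwy, hy⟩ := two_arc (j := j) h hwi
  obtain ⟨γ, t, hγ, ht, hγ0, hγs, hend⟩ := hex w hw hwx y hwy
  have hpal : ∀ s ∈ Icc 0 t, j ∈ Pal U (γ s) := by
    intro s hs
    obtain ⟨h1, h2, h3⟩ := hγs s hs
    by_cases h4 : γ s = x
    · rw [h4]; exact H.xj
    · exact h.sub _ ((hy _ h3).2 (H.two _ h1 h4 h2))
  have hΓ1 : IsPreconnected (γ '' Icc 0 t) := isPreconnected_Icc.image _ hγ.continuousOn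
  have ht' : t ∈ Icc 0 t := ⟨ht, le_rfl⟩
  have h0' : (0 : ℝ) ∈ Icc 0 t := ⟨le_rfl, ht⟩
  obtain ⟨α, hα, hγt⟩ : ∃ α : ℝ, 0 ≤ α ∧ γ t = x + α * u := by
    rcases hend with h1 | ⟨β, hβ, h1⟩
    · exact h1
    · rcases hβ.eq_or_lt with h2 | h2
      · exact ⟨0, le_rfl, by rw [h1, ← h2]; simp⟩
      · exfalso
        refine (hy _ (hγs t ht').2.2).1 ?_
        rw [h1]
        refine H.rv β h2 ?_
        have h3 := (hγs t ht').2.1
        rw [h1, dist_eq_norm, add_sub_cancel_left, norm_mul, H.hv, mul_one, Complex.norm_real,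
          Real.norm_eq_abs, abs_of_pos h2] at h3
        exact h3
  have hαρ : α < ρ := by
    have h3 := (hγs t ht').2.1
    rw [hγt, dist_eq_norm, add_sub_cancel_left, norm_mul, H.hu, mul_one, Complex.norm_real,
      Real.norm_eq_abs, abs_of_nonneg hα] at h3
    exact h3
  have hc2 : Continuous fun s : ℝ => x + s * u := by fun_prop
  have hΓ2 : IsPreconnected ((fun s : ℝ => x + s * u) '' Icc 0 α) := isPreconnected_Icc.image _ hc2.continuousOn
  refine ⟨γ '' Icc 0 t ∪ (fun s : ℝ => x + s * u) '' Icc 0 α,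
    hΓ1.union (γ t) ⟨t, ht', rfl⟩ ⟨α, ⟨hα, le_rfl⟩, hγt.symm⟩ hΓ2, Or.inl ⟨0, h0', hγ0⟩,
    Or.inr ⟨0, ⟨le_rfl, hα⟩, by simp⟩, ?_, ?_⟩
  · rintro p (⟨s, hs, rfl⟩ | ⟨s, hs, rfl⟩)
    · exact (hγs s hs).2.1
    · rw [mem_ball, dist_eq_norm, add_sub_cancel_left, norm_mul, H.hu, mul_one, Complex.norm_real,
        Real.norm_eq_abs, abs_of_nonneg hs.1]
      exact lt_of_le_of_lt hs.2 hαρ
  · rintro p (⟨s, hs, rfl⟩ | ⟨s, hs, rfl⟩)
    · exact hpal s hs
    · rcases hs.1.eq_or_lt with h1 | h1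
      · rw [← h1]; simpa using H.xj
      · exact H.ru s h1 (lt_of_le_of_lt hs.2 hαρ)

theorem mem_closure_of_le {V : Set ℂ} {w p : ℂ} (h0 : 0 < infDist w Vᶜ)
    (hp : dist w p ≤ infDist w Vᶜ) : p ∈ closure V := by
  have h1 : p ∈ closedBall w (infDist w Vᶜ) := by rw [mem_closedBall, dist_comm]; exact hp
  rw [← closure_ball w h0.ne'] at h1
  refine closure_mono ?_ h1
  intro q hq
  by_contra hqV
  have h2 : infDist w Vᶜ ≤ dist w q := infDist_le_dist_of_mem hqV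
  rw [mem_ball, dist_comm] at hq
  exact absurd h2 (not_le.2 hq)

/-- **(SEC)** in the overlap: `j` is at least as deep as `i` -/
theorem sec_join' (h : Irr U T) {ρ : ℝ} (H : SecD U T x u v i j ρ) (hxi : x ∉ U i)
    (nu : ∀ r : ℝ, 0 < r → r < ρ → i ∉ Pal U (x + r * u)) (nv : ∀ r : ℝ, 0 < r → r < ρ → j ∉ Pal U (x + r * v)) :
    ∃ r > 0, ∀ w ∈ Sec x u v, dist w x < r → (w ∈ U i → ff U i w ≤ ff U j w) → Jn U j x ρ w := by
  obtain ⟨r, hr, hj⟩ := sec_join h H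
  have hρ := H.hρ
  refine ⟨min r ρ / 3, by positivity, fun w hw hwx hff => ?_⟩
  have hr1 : min r ρ ≤ r := min_le_left _ _
  have hr2 : min r ρ ≤ ρ := min_le_right _ _
  have hm0 : 0 < min r ρ := lt_min hr hρ
  by_cases hwi : w ∈ U i
  swap
  · exact hj w hw (by linarith) hwi
  have hff := hff hwi
  have hnei : (U i)ᶜ.Nonempty := ⟨x, hxi⟩
  have hi0 : 0 < ff U i w := h.mx.ff_pos hwi
  have hj0 : 0 < ff U j w := lt_of_lt_of_le hi0 hff
  obtain ⟨p, hp, hpd⟩ := (h.mx.isOpen i).isClosed_compl.exists_infDist_eq_dist hnei w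
  have hpd : ff U i w = dist w p := hpd
  have hpx : dist w p ≤ dist w x := by rw [← hpd]; exact infDist_le_dist_of_mem hxi
  -- the segment
  set γ : ℝ → ℂ := fun s => w + s * (p - w) with hγ
  have hγc : Continuous γ := by rw [hγ]; fun_prop
  have hγ0 : γ 0 = w := by simp [hγ]
  have hγ1 : γ 1 = p := by simp [hγ]
  have hγw : ∀ s ∈ Icc (0 : ℝ) 1, dist w (γ s) ≤ dist w p := by
    intro s hs
    rw [hγ, dist_comm, dist_eq_norm, add_sub_cancel_left, norm_mul, Complex.norm_real, Real.norm_eq_abs,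
      abs_of_nonneg hs.1, dist_comm w p, dist_eq_norm]
    exact mul_le_of_le_one_left (norm_nonneg _) hs.2
  have hγj : ∀ s ∈ Icc (0 : ℝ) 1, γ s ∈ closure (U j) := fun s hs =>
    mem_closure_of_le hj0 ((hγw s hs).trans (by rw [← hpd]; exact hff))
  have hγi : ∀ s ∈ Icc (0 : ℝ) 1, γ s ∈ closure (U i) := fun s hs =>
    mem_closure_of_le hi0 ((hγw s hs).trans hpd.ge)
  have hγx : ∀ s ∈ Icc (0 : ℝ) 1, dist (γ s) x < min r ρ := by
    intro s hs
    have h1 := hγw s hs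
    have h2 := dist_triangle (γ s) w x
    rw [dist_comm (γ s) w] at h2
    linarith
  have hpre : ∀ t ∈ Icc (0 : ℝ) 1, IsPreconnected (γ '' Icc 0 t) := fun t _ =>
    isPreconnected_Icc.image _ hγc.continuousOn
  by_cases hpS : p ∈ Sec x u v
  · obtain ⟨Γ, h1, h2, h3, h4, h5⟩ := hj p hpS (by
      have := hγx 1 ⟨zero_le_one, le_rfl⟩
      rw [hγ1] at this
      linarith) hp
    refine ⟨γ '' Icc 0 1 ∪ Γ, (hpre 1 ⟨zero_le_one, le_rfl⟩).union p ⟨1, ⟨zero_le_one, le_rfl⟩, hγ1⟩ h2 h1,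
      Or.inl ⟨0, ⟨le_rfl, zero_le_one⟩, hγ0⟩, Or.inr h3, ?_, ?_⟩
    · rintro q (⟨s, hs, rfl⟩ | hq)
      · exact lt_of_lt_of_le (hγx s hs) hr2
      · exact h4 hq
    · rintro q (⟨s, hs, rfl⟩ | hq)
      · exact hγj s hs
      · exact h5 q hq
  · obtain ⟨t, ht, hin, hend⟩ := exit_path H.hD hγc zero_le_one (by rw [hγ0]; exact hw) (by rw [hγ1]; exact hpS)
    have hγt : γ t = x := by
      rcases hend with ⟨α, hα, h1⟩ | ⟨β, hβ, h1⟩
      · rcases hα.eq_or_lt with h2 | h2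
        · rw [h1, ← h2]; simp
        · exfalso
          refine nu α h2 ?_ (by rw [← h1]; exact hγi t ht)
          have h3 := hγx t ht
          rw [h1, dist_eq_norm, add_sub_cancel_left, norm_mul, H.hu, mul_one, Complex.norm_real,
            Real.norm_eq_abs, abs_of_pos h2] at h3
          linarith
      · rcases hβ.eq_or_lt with h2 | h2
        · rw [h1, ← h2]; simp
        · exfalso
          refine nv β h2 ?_ (by rw [← h1]; exact hγj t ht)
          have h3 := hγx t ht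
          rw [h1, dist_eq_norm, add_sub_cancel_left, norm_mul, H.hv, mul_one, Complex.norm_real,
            Real.norm_eq_abs, abs_of_pos h2] at h3
          linarith
    refine ⟨γ '' Icc 0 t, hpre t ht, ⟨0, ⟨le_rfl, ht.1⟩, hγ0⟩, ⟨t, ⟨ht.1, le_rfl⟩, hγt⟩, ?_, ?_⟩
    · rintro q ⟨s, hs, rfl⟩
      exact lt_of_lt_of_le (hγx s ⟨hs.1, hs.2.trans ht.2⟩) hr2
    · rintro q ⟨s, hs, rfl⟩
      exact hγj s ⟨hs.1, hs.2.trans ht.2⟩

end Vale.Agent.P032.H909
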